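import Mathlib

/-!
Definitions used in the statement for problem P265. DO NOT EDIT.
-/

namespace Vale.Agent.P265

open scoped Manifold ContDiff

section

variable (E : Type) [NormedAddCommGroup E] [NormedSpace ℝ E]
  {M : Type} [TopologicalSpace M] [ChartedSpace E M]

/-- The coordinate vector field of the chart at `x₀` with constant components `u`, evaluated at
the point with coordinates `p`. -/
noncomputable def coordVec (x₀ : M) (u p : E) :
    TangentSpace 𝓘(ℝ, E) ((chartAt E x₀).symm p) :=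
  mfderiv 𝓘(ℝ, E) 𝓘(ℝ, E) (chartAt E x₀).symm p u

/-- A smooth real two-form: a field of alternating bilinear forms on the tangent spaces whose
components are smooth in every chart. -/
structure TwoForm (M : Type) [TopologicalSpace M] [ChartedSpace E M] where
  toFun : ∀ x : M, TangentSpace 𝓘(ℝ, E) x →ₗ[ℝ] TangentSpace 𝓘(ℝ, E) x →ₗ[ℝ] ℝ
  alt : ∀ (x : M) (v : TangentSpace 𝓘(ℝ, E) x), toFun x v v = 0
  smooth : ∀ (x₀ : M) (u v : E), ContDiffOn ℝ ∞
    (fun p => toFun _ (coordVec E x₀ u p) (coordVec E x₀ v p)) (chartAt E x₀).target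

variable {E}

/-- The component `β(u, v)` of a two-form in the chart at `x₀`, as a function of the
coordinates. -/
noncomputable def TwoForm.coef (β : TwoForm E M) (x₀ : M) (u v p : E) : ℝ :=
  β.toFun _ (coordVec E x₀ u p) (coordVec E x₀ v p)

/-- `dβ = 0`: in every chart, `∂_u β(v,w) + ∂_v β(w,u) + ∂_w β(u,v) = 0` for all coordinate
vector fields `u, v, w`. -/
def TwoForm.IsClosed (β : TwoForm E M) : Prop :=
  ∀ x₀ : M, ∀ p ∈ (chartAt E x₀).target, ∀ u v w : E,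
    fderiv ℝ (β.coef x₀ v w) p u + fderiv ℝ (β.coef x₀ w u) p v +
      fderiv ℝ (β.coef x₀ u v) p w = 0

/-- Symplectic: closed and nondegenerate. -/
def TwoForm.IsSymplectic (β : TwoForm E M) : Prop :=
  β.IsClosed ∧ ∀ (x : M) (v : TangentSpace 𝓘(ℝ, E) x), (∀ w, β.toFun x v w = 0) → v = 0

/-- `H` is a smooth one-periodic Hamiltonian and `φ` is its flow up to time one: `φ 0 = id` and
`β (d/dt φ t x, ·) = d (H t)` at `φ t x` for `0 ≤ t ≤ 1`. -/
structure IsHamFlow (β : TwoForm E M) (H : ℝ → M → ℝ) (φ : ℝ → M → M) : Prop where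
  smoothH : ContMDiff (𝓘(ℝ, ℝ).prod 𝓘(ℝ, E)) 𝓘(ℝ, ℝ) ∞ fun q : ℝ × M => H q.1 q.2
  periodic : ∀ t x, H (t + 1) x = H t x
  smoothφ : ContMDiff (𝓘(ℝ, ℝ).prod 𝓘(ℝ, E)) 𝓘(ℝ, E) ∞ fun q : ℝ × M => φ q.1 q.2
  zero : ∀ x, φ 0 x = x
  ode : ∀ t ∈ Set.Icc (0 : ℝ) 1, ∀ (x : M) (w : TangentSpace 𝓘(ℝ, E) (φ t x)),
    β.toFun (φ t x) (mfderiv 𝓘(ℝ, ℝ) 𝓘(ℝ, E) (fun τ => φ τ x) t (1 : ℝ)) w =
      mfderiv 𝓘(ℝ, E) 𝓘(ℝ, ℝ) (H t) (φ t x) w

variable (E)

/-- All fixed points of `f` are nondegenerate: `1` is not an eigenvalue of the differential. -/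
def NondegFix (f : M → M) : Prop :=
  ∀ x, f x = x → ∀ v : E, (mfderiv 𝓘(ℝ, E) 𝓘(ℝ, E) f x v : E) = v → v = 0

/-- The fixed points of `φ 1` whose loop `t ↦ φ t x`, `0 ≤ t ≤ 1`, is contractible. -/
def Fix0 (φ : ℝ → M → M) : Set M :=
  {x | φ 1 x = x ∧ ∃ h : C(unitInterval × unitInterval, M), (∀ t, h (0, t) = φ t x) ∧
    (∀ σ, h (σ, 0) = h (σ, 1)) ∧ ∀ t, h (1, t) = h (1, 0)}

/-- The Euclidean space `ℝ^k`. -/
abbrev Rk (k : ℕ) : Type := EuclideanSpace ℝ (Fin k)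

/-- A function on `M × ℝ^k` read in the chart at `x`. -/
noncomputable def loc {k : ℕ} (F : M × Rk k → ℝ) (x : M) (q : E × Rk k) : ℝ :=
  F ((chartAt E x).symm q.1, q.2)

/-- Critical points. -/
def Crit {k : ℕ} (F : M × Rk k → ℝ) : Set (M × Rk k) :=
  {a | fderiv ℝ (loc E F a.1) (chartAt E a.1 a.1, a.2) = 0}

/-- A Morse function on `M × ℝ^k`: smooth, with nondegenerate Hessian at each critical point. -/
def IsMorse {k : ℕ} (F : M × Rk k → ℝ) : Prop :=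
  ContMDiff (𝓘(ℝ, E).prod 𝓘(ℝ, Rk k)) 𝓘(ℝ, ℝ) ∞ F ∧ ∀ a ∈ Crit E F,
    Function.Injective (fderiv ℝ (fderiv ℝ (loc E F a.1)) (chartAt E a.1 a.1, a.2))

/-- `F (x, z) = Q z` for `|z| ≥ R`, for a nondegenerate quadratic form `Q` and some `R > 0`
(no condition when `k = 0`). -/
def QuadInf {k : ℕ} (F : M × Rk k → ℝ) : Prop :=
  ∃ (Q : QuadraticForm ℝ (Rk k)) (R : ℝ), (∀ v, (∀ w, QuadraticMap.polar Q v w = 0) → v = 0) ∧
    0 < R ∧ ∀ x z, R ≤ ‖z‖ → F (x, z) = Q z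

variable (M) in
/-- The stable Morse number. -/
noncomputable def stableMorse : ℕ∞ :=
  ⨅ (k : ℕ) (F : M × Rk k → ℝ) (_ : IsMorse E F) (_ : QuadInf F), (Crit E F).encard

end

end Vale.Agent.P265
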